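import Mathlib
import Vale.Agent.P028.FullMeasure

namespace Vale.Agent.Results.P028.AllShiftsMinPsi

open MeasureTheory

/-- For every shift `γ` and every `ψ ≥ 0`: if `∑ φ(q)/q · min(ψ(q), 1/q)` diverges then
`‖q x - γ‖ < ψ(q)` has infinitely many solutions `q ≥ 1` for almost every real `x`. -/
theorem result : ∀ (γ : ℝ) (ψ : ℕ → ℝ), (∀ q, 0 ≤ ψ q) →
    ¬ Summable (fun q : ℕ => (Nat.totient q : ℝ) / q * min (ψ q) (1 / (q : ℝ))) →
    volume {x : ℝ | ¬ {q : ℕ | 0 < q ∧ ∃ a : ℤ, |(q : ℝ) * x - a - γ| < ψ q}.Infinite} = 0 :=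
  fun γ ψ hψ hdiv => Vale.Agent.P028.full_measure_min γ ψ hψ hdiv

end Vale.Agent.Results.P028.AllShiftsMinPsi
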