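import Mathlib
import Vale.Agent.P028.ExtraLog.Main

namespace Vale.Agent.Results.P028.ExtraLogDivergence

open MeasureTheory

/-- For every shift `γ`, every `ψ ≥ 0` and every `ε > 0`: if
`∑ φ(q)/q · ψ(q) / (1 + log q) ^ ε` diverges then `‖q x - γ‖ < ψ(q)` has infinitely many solutions
`q ≥ 1` for almost every real `x`. -/
theorem result : ∀ (γ : ℝ) (ψ : ℕ → ℝ), (∀ q, 0 ≤ ψ q) → ∀ ε : ℝ, 0 < ε →
    ¬ Summable (fun q : ℕ => (Nat.totient q : ℝ) / q * ψ q / (1 + Real.log q) ^ ε) →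
    volume {x : ℝ | ¬ {q : ℕ | 0 < q ∧ ∃ a : ℤ, |(q : ℝ) * x - a - γ| < ψ q}.Infinite} = 0 :=
  fun γ ψ hψ ε hε hdiv => Vale.Agent.P028.ExtraLog.full_measure_extra_log γ ψ hψ ε hε hdiv

end Vale.Agent.Results.P028.ExtraLogDivergence
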